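import Vale.Agent.P261.St.Defs
import Mathlib.SetTheory.Cardinal.Continuum

/-!
# P261, statement layer: finite localizations

* `IsFinLoc G u` : `u : Y ⟶ Z` is the finite localization of `Y` away from `G`.
-/

open CategoryTheory MonoidalCategory

namespace Vale.Agent.P261.St

open Vale.Agent.P251.St Vale.Agent.P251.St.SHCat

variable {T : SHCat}

/-- `u : Y ⟶ Z` is the finite localization of `Y` away from `G`: `Z ⊗ G = 0`, and every map from
`Y` to an object `W` with `W ⊗ G = 0` factors in exactly one way through `u`. (If `G` is a finite
complex of type `n`, killed by a power of `p`, and `Y` is `p`-local, then `Z` is the chromatic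
finite localization of `Y` of height `n - 1`.) -/
def IsFinLoc (G : T.C) {Y Z : T.C} (u : Hom Y Z) : Prop :=
  ident (ten Z G) = 0 ∧
    ∀ W : T.C, ident (ten W G) = 0 → ∀ f : Hom Y W, ∃! v : Hom Z W, comp u v = f

end Vale.Agent.P261.St
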