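import Mathlib.Data.Int.Cast.Lemmas
import Mathlib.Algebra.Ring.Int.Defs

/-!
# P261, statement layer: the degrees of the homotopy of `L_{K(n)} S`

* `Row p n t` : `2 (p - 1)` divides one of the integers `t, t + 1, …, t + n²`.
-/

namespace Vale.Agent.P261.St

/-- `2 (p - 1)` divides `t + s` for some `0 ≤ s ≤ n²`. -/
def Row (p n : ℕ) (t : ℤ) : Prop := ∃ s : ℕ, s ≤ n ^ 2 ∧ 2 * ((p : ℤ) - 1) ∣ t + s

end Vale.Agent.P261.St
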