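import Vale.Agent.P251.St.Chrom
import Mathlib.NumberTheory.Padics.PadicIntegers
import Mathlib.RingTheory.Finiteness.Defs

/-!
# P261, statement layer

Together with `P251/T/Axioms.lean`, `P251/St/Base.lean`, `P251/St/Chrom.lean` and the Morava
`K`-theories of `P241/St/Defs.lean` these are the definitions which enter the statement.

* `Pi t X` : the homotopy group `π_t X`.
* `IsLocal E X` : `X` is `E`-local.
* `FinGen p A` : the abelian group `A` is a finitely generated `ℤ_p`-module.
* `Window p N X` : if `π_t X` is finitely generated over `ℤ_p` for `N` consecutive integers `t`,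
  then it is for all `t`.
* `Cells b e X` : `X` is a finite complex with cells of dimensions in `[b, e]`.
-/

open CategoryTheory MonoidalCategory

namespace Vale.Agent.P261.St

open Vale.Agent.P251.St Vale.Agent.P251.St.SHCat

variable {T : SHCat}

/-- the homotopy group `π_t X` -/
abbrev Pi (t : ℤ) (X : T.C) : Type := Hom (sphere T t) X

/-- `X` is `E`-local: there are no nonzero maps from `E`-acyclic objects to `X`. -/
def IsLocal (E X : T.C) : Prop := ∀ W : T.C, Acyclic E W → ∀ g : Hom W X, g = 0

/-- The abelian group `A` is the underlying group of a finitely generated `ℤ_p`-module. -/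
def FinGen (p : ℕ) [Fact p.Prime] (A : Type) [AddCommGroup A] : Prop :=
  ∃ m : Module ℤ_[p] A, @Module.Finite ℤ_[p] A _ _ m

/-- If the groups `π_t X` are finitely generated over `ℤ_p` for all `t` in some interval of `N`
consecutive integers, then they are finitely generated for all `t ∈ ℤ`. -/
def Window (p : ℕ) [Fact p.Prime] (N : ℤ) (X : T.C) : Prop :=
  ∀ a : ℤ, (∀ t : ℤ, a ≤ t → t < a + N → FinGen p (Pi t X)) → ∀ t : ℤ, FinGen p (Pi t X)

/-- `X` is a finite complex with cells of dimensions in `[b, e]`: the smallest class of spectra
which contains the zero objects and the spheres of these dimensions and which is closed under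
extensions. -/
inductive Cells (b e : ℤ) : T.C → Prop
  | zero {X : T.C} : ident X = 0 → Cells b e X
  | sph {d : ℤ} : b ≤ d → d ≤ e → Cells b e (sphere T d)
  | ext {X Y Z : T.C} {f : Hom X Y} {g : Hom Y Z} {h : Hom Z (sus X)} :
      Dist f g h → Cells b e X → Cells b e Z → Cells b e Y

end Vale.Agent.P261.St
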